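import Vale.Agent.P090.H29.Bounded

/-! A negative answer to Kalton's question in quantitative form: a countable metric space with
integer distances whose Lipschitz-free space fails the bounded approximation property, together
with two-sided bounds for the constant of the bounded approximation property of `F(M)` when all
distances are in `[1, D]`. -/

namespace Vale.Agent.Results.P090.KaltonQuantitative

open Vale.Agent.P090

theorem result :
    -- (1) a uniformly discrete space whose free space fails the BAP
    (∃ (M : Type) (_ : MetricSpace M), Nonempty M ∧ Countable M ∧ UniformlyDiscrete M ∧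
      (∀ x y : M, ∃ n : ℕ, dist x y = n) ∧ ∀ o : M, ¬ HasBAP (LipFree M o)) ∧
    -- (2) bounded spaces: the constant is at least of the order of `√D`
    (∀ lam : ℝ, 1 ≤ lam → ∃ (M : Type) (_ : MetricSpace M), Nonempty M ∧ Countable M ∧
      (∀ x y : M, ∃ n : ℕ, dist x y = n) ∧ (∀ x y : M, dist x y ≤ (52 * lam + 65) ^ 2) ∧
      ∀ o : M, ¬ HasBAPWith lam (LipFree M o)) ∧
    -- (3) bounded spaces: the constant is at most `D`
    (∀ (D : ℝ) (M : Type) (_ : MetricSpace M), (∀ x y : M, x ≠ y → 1 ≤ dist x y) →
      (∀ x y : M, dist x y ≤ D) → ∀ o : M, HasBAPWith D (LipFree M o)) := by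
  refine ⟨⟨MM, inferInstance, ⟨Glue.base blk⟩, inferInstance,
    ⟨1, one_pos, fun _ _ h => glue_one_le blk h⟩, fun x y => ⟨_, glue_dist _ x y⟩, fun o h => ?_⟩,
    H29.exists_bounded', fun D M _ h1 hD o => H29.hasBAPWith_of_bounded h1 hD o⟩
  obtain ⟨lam, h1, h2⟩ := hasBAP_base (Glue.base blk) o h
  exact no_bap lam h1 h2

end Vale.Agent.Results.P090.KaltonQuantitative
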