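import Vale.Agent.P090.H117.Graph

/-! A countable connected graph whose Lipschitz-free space fails the bounded approximation property,
even for compact operators and at every scale, together with the Lipschitz-free spaces of all
uniformly discrete metric spaces quasi-isometric to it. -/

namespace Vale.Agent.Results.P090.QuasiIsometryClass

open Vale.Agent.P090.H117

theorem result :
    -- (0) every pointed metric space has a Lipschitz-free space
    (∀ (M : Type) [MetricSpace M] (o : M), ∃ (X : Type) (_ : NormedAddCommGroup X)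
      (_ : NormedSpace ℝ X) (δ : M → X), IsLipFree o X δ) ∧
    -- a countable connected graph `G` on `V`; the metric of `V` is the path metric
    ∃ (V : Type) (_ : MetricSpace V) (G : SimpleGraph V), Countable V ∧ G.Connected ∧
      (∀ x y : V, dist x y = G.dist x y) ∧ (∀ x y : V, x ≠ y → 1 ≤ dist x y) ∧
      -- (1) the free space of `V` fails the BAP
      (∀ (o : V) (X : Type) [NormedAddCommGroup X] [NormedSpace ℝ X] (δ : V → X),
        IsLipFree o X δ → ¬ HasBAP X) ∧
      -- (2) for all `lam`, `r` some finite set of points is moved by more than `r` by every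
      -- compact operator of norm at most `lam`
      (∀ (o : V) (X : Type) [NormedAddCommGroup X] [NormedSpace ℝ X] (δ : V → X),
        IsLipFree o X δ → ∀ lam r : ℝ, ∃ A : Finset V, ∀ T : X →L[ℝ] X, IsCompactOperator T →
          ‖T‖ ≤ lam → ∃ x ∈ A, r < ‖T (δ x) - δ x‖) ∧
      -- (3) every uniformly discrete space quasi-isometric to `V` has the same defect
      (∀ (N : Type) [MetricSpace N], (∃ c > 0, ∀ x y : N, x ≠ y → c ≤ dist x y) →
        ∀ (f : V → N) (C : ℝ), (∀ x y, dist (f x) (f y) ≤ C * dist x y + C) →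
          (∀ x y, dist x y ≤ C * dist (f x) (f y) + C) → (∀ z, ∃ x, dist (f x) z ≤ C) →
          ∀ (o : N) (X : Type) [NormedAddCommGroup X] [NormedSpace ℝ X] (δ : N → X),
            IsLipFree o X δ → ¬ HasCompactBAP X ∧ ¬ HasBAP X) := by
  refine ⟨fun M _ o => ⟨_, _, _, _, isLipFree_lipSpan⟩, ?_⟩
  obtain ⟨V, hV, G, hc, hG, hd, hF⟩ := exists_graph
  have h1 : ∀ x y : V, x ≠ y → 1 ≤ dist x y := by
    intro x y hxy
    rw [hd]
    exact_mod_cast hG.pos_dist_of_ne hxy
  refine ⟨V, hV, G, hc, hG, hd, h1, ?_, ?_, ?_⟩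
  · intro o X _ _ δ hδ hB
    exact (hF o).not_hasCompactBAP hδ hB.compact
  · intro o X _ _ δ hδ lam r
    exact (hF o).abstract hδ lam r
  · rintro N _ ⟨c, hc0, hN⟩ f C e1 e2 e3 o X _ _ δ hδ
    obtain ⟨x₀, -⟩ := e3 o
    have h2 := ((hF x₀).quasi h1 hc0 hN f C e1 e2 e3 o).not_hasCompactBAP hδ
    exact ⟨h2, fun hB => h2 hB.compact⟩

end Vale.Agent.Results.P090.QuasiIsometryClass
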